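import Vale.Agent.P141.H676.LoH

/-!
# P141, line (A): the crude lemma for the low levels, row traces, families in `x₀`

`LoPW` : the crude lemma for one `x₀` with row traces against the mass of the change (`WF` on the
plane, `WH` own); `LoFam` : the form summed over `x₀`; `loFam_of : LoPW → LoFam`.  Over `LoFam` the
bound of `LP` in raw letters, in the letters of the labels, and for the light multiplier.
-/

set_option linter.unusedSectionVars false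

namespace Vale.Agent.P141.H511.LoW

open Finset Matrix Vale.Agent.P075 Vale.Agent.P141.PL Vale.Agent.P141.PL.H804
open Vale.Agent.P141.H958 Vale.Agent.P141.H103 Vale.Agent.P141.H609 Vale.Agent.P141.H433
open Vale.Agent.P141.H338 Vale.Agent.P141.H822
open Vale.Agent.P141.PL.H588 (Xg hd Pl)

noncomputable section

/-- row trace at the cell `(a, n)`, base point `x` -/
def rt (L a : ℕ) (F : ℤ → ℤ → ℝ) (n x : ℤ) : ℝ := (Xg (L + a) L F n x).trace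

theorem rt_nonneg (L a : ℕ) (F : ℤ → ℤ → ℝ) (n x : ℤ) : 0 ≤ rt L a F n x :=
  (H588.Xg_psd ..).trace_nonneg

/-- the tied number -/
def WF (L N : ℕ) (R S T : ℤ) (U : ℕ → ℤ → ℤ → Matrix (Ix L) (Ix L) ℝ) (c : ℕ → ℤ)
    (F H : ℕ → ℤ → ℤ → ℝ) : ℝ :=
  ∑ k ∈ range N, GW N R S T (k + 1) (c (k + 1)) (fun n n' m =>
    ((2 : ℝ) ^ (k + 1))⁻¹ * ∑ x ∈ iv (k + 1) m,
      (rt L (k + 1) (F (L + (k + 1))) n x + rt L (k + 1) (H (L + (k + 1))) n' x) * vd U k x n')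

/-- the own number -/
def WH (L N : ℕ) (S T : ℤ) (U : ℕ → ℤ → ℤ → Matrix (Ix L) (Ix L) ℝ)
    (H : ℕ → ℤ → ℤ → ℝ) : ℝ :=
  ∑ k ∈ range N, ∑ r ∈ range (N - (k + 1) + 1), (3 / 4 : ℝ) ^ r * (2 ^ (k + 1) *
    ∑ x ∈ iv N S, ∑ j ∈ iv (N - (k + 1)) T,
      (rt L (k + 1) (H (L + (k + 1))) j x + rt L (k + 1 + r) (H (L + (k + 1))) (ix r j) x) *
        vd U k x j)

/-- **The crude lemma with row traces**, one `x₀`. -/
def LoPW : Prop :=
  ∀ (L N : ℕ) (R S T : ℤ) (c : ℕ → ℤ) (U : ℕ → ℤ → ℤ → Matrix (Ix L) (Ix L) ℝ)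
    (Q Q' : ℕ → ℤ → ℤ → Prop) (F H : ℕ → ℤ → ℤ → ℝ) (D D' : ℝ), Pl c → (∀ k x n, Ct (U k x n)) →
    L2E (L + N) R S Q F D → L2E (L + N) T S Q' H D' →
    ∑ k ∈ range N, GW N R S T (k + 1) (c (k + 1)) (H433.mt U (F (L + (k + 1))) (H (L + (k + 1))) k) ≤
      10 ^ 4 * (((4 : ℝ) ^ L)⁻¹ * (D + D') + WF L N R S T U c F H + WH L N S T U H)

/-- **The crude lemma summed over `x₀`.** -/
def LoFam : Prop :=
  ∀ (L N : ℕ) (R S T : ℤ) (X : Finset ℤ) (c : ℤ → ℕ → ℤ)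
    (U : ℕ → ℤ → ℤ → Matrix (Ix L) (Ix L) ℝ) (Q Q' : ℤ → ℕ → ℤ → ℤ → Prop)
    (F H : ℤ → ℕ → ℤ → ℤ → ℝ) (D D' : ℤ → ℝ) (ρ G : ℝ), 0 ≤ ρ → (∀ i ∈ X, Pl (c i)) →
    (∀ k x n, Ct (U k x n)) → (∀ i ∈ X, L2E (L + N) R S (Q i) (F i) (D i)) →
    (∀ i ∈ X, L2E (L + N) T S (Q' i) (H i) (D' i)) →
    (∀ k < N, ∀ x ∈ iv N S, ∀ n' ∈ iv (N - (k + 1)) T, ∑ i ∈ X,
      (if c i (k + 1) - ix (k + 1) x - n' ∈ iv (N - (k + 1)) R then
        rt L (k + 1) (F i (L + (k + 1))) (c i (k + 1) - ix (k + 1) x - n') x else 0) ≤ ρ) →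
    (∀ k < N, ∀ x ∈ iv N S, ∀ n' ∈ iv (N - (k + 1)) T, ∑ i ∈ X,
      rt L (k + 1) (H i (L + (k + 1))) n' x ≤ ρ) →
    ∑ x ∈ iv N S, ∑ k ∈ range N, 2 ^ (k + 1) * ∑ j ∈ iv (N - (k + 1)) T, vd U k x j ≤ 4 ^ N * G →
    ∑ i ∈ X, ∑ k ∈ range N, GW N R S T (k + 1) (c i (k + 1))
        (H433.mt U (F i (L + (k + 1))) (H i (L + (k + 1))) k) ≤
      10 ^ 4 * (((4 : ℝ) ^ L)⁻¹ * ∑ i ∈ X, (D i + D' i) + 10 * ρ * (4 ^ N * G))

/-! ### The numbers -/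

theorem plane_swap (A B : Finset ℤ) (d : ℤ) (g : ℤ → ℤ → ℝ) :
    ∑ n ∈ A, (if d - n ∈ B then g n (d - n) else 0) =
      ∑ n' ∈ B, (if d - n' ∈ A then g (d - n') n' else 0) := by
  have h1 : ∀ n ∈ A, (if d - n ∈ B then g n (d - n) else 0) =
      ∑ n' ∈ B, (if n + n' = d then g n n' else 0) := by
    intro n _
    rw [← Finset.sum_ite_eq' B (d - n) fun n' => g n n']
    refine sum_congr rfl fun n' _ => if_congr ?_ rfl rfl
    constructor <;> intro h <;> linarith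
  have h2 : ∀ n' ∈ B, (if d - n' ∈ A then g (d - n') n' else 0) =
      ∑ n ∈ A, (if n + n' = d then g n n' else 0) := by
    intro n' _
    rw [← Finset.sum_ite_eq' A (d - n') fun n => g n n']
    refine sum_congr rfl fun n _ => if_congr ?_ rfl rfl
    constructor <;> intro h <;> linarith
  rw [sum_congr rfl h1, sum_congr rfl h2, sum_comm]

/-- a plane sum, the last slot first -/
theorem GW_swap (N : ℕ) (R S T : ℤ) (k : ℕ) (c : ℤ) (g : ℤ → ℤ → ℤ → ℝ) :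
    GW N R S T k c g = 4 ^ k * ∑ m ∈ iv (N - k) S, ∑ n' ∈ iv (N - k) T,
      if c - m - n' ∈ iv (N - k) R then g (c - m - n') n' m else 0 := by
  unfold GW
  congr 1
  refine sum_congr rfl fun m _ => ?_
  exact plane_swap _ _ (c - m) fun n n' => g n n' m

theorem nest (N k : ℕ) (hk : k ≤ N) (S : ℤ) (f : ℤ → ℝ) :
    ∑ m ∈ iv (N - k) S, ∑ x ∈ iv k m, f x = ∑ x ∈ iv N S, f x := by
  have h := sum_iv_nest (N - k) k S f
  rwa [Nat.sub_add_cancel hk] at h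

/-- row traces of a coarse cell are means -/
theorem rt_mean (L a r : ℕ) (F : ℤ → ℤ → ℝ) (n x : ℤ) :
    rt L (a + r) F n x = ((2 : ℝ) ^ r)⁻¹ * ∑ j ∈ iv r n, rt L a F j x := by
  have h1 := H588.trace_Xg (L + (a + r)) L F n x
  have h2 : ∀ j, (2 : ℝ) ^ (L + a) * 2 ^ L * rt L a F j x =
      ∑ y ∈ iv L x, ∑ p ∈ iv (L + a) j, F p y ^ 2 := fun j => H588.trace_Xg (L + a) L F j x
  have h3 : (2 : ℝ) ^ (L + a) * 2 ^ L * ∑ j ∈ iv r n, rt L a F j x =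
      ∑ y ∈ iv L x, ∑ p ∈ iv (L + (a + r)) n, F p y ^ 2 := by
    rw [mul_sum, sum_congr rfl fun j _ => h2 j, sum_comm]
    refine sum_congr rfl fun y _ => ?_
    have h := sum_iv_nest r (L + a) n fun p => F p y ^ 2
    rw [h, show r + (L + a) = L + (a + r) by ring]
  rw [← h3] at h1
  have e1 : (2 : ℝ) ^ (L + (a + r)) = 2 ^ (L + a) * 2 ^ r := by rw [← pow_add]; congr 1; ring
  rw [e1] at h1
  have z1 : (2 : ℝ) ^ (L + a) * 2 ^ L ≠ 0 := by positivity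
  have z2 : (2 : ℝ) ^ r ≠ 0 := by positivity
  have h4 : (2 : ℝ) ^ r * rt L (a + r) F n x = ∑ j ∈ iv r n, rt L a F j x := by
    refine mul_left_cancel₀ z1 ?_
    rw [← h1]
    unfold rt
    ring
  rw [← h4, inv_mul_cancel_left₀ z2]

section num

variable {L N : ℕ} {R S T : ℤ} {X : Finset ℤ} {c : ℤ → ℕ → ℤ}
  {U : ℕ → ℤ → ℤ → Matrix (Ix L) (Ix L) ℝ} {F H : ℤ → ℕ → ℤ → ℤ → ℝ} {ρ G : ℝ}

/-- **The tied number summed over `x₀`.** -/
theorem sum_WF (hρ : 0 ≤ ρ)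
    (hF : ∀ k < N, ∀ x ∈ iv N S, ∀ n' ∈ iv (N - (k + 1)) T, ∑ i ∈ X,
      (if c i (k + 1) - ix (k + 1) x - n' ∈ iv (N - (k + 1)) R then
        rt L (k + 1) (F i (L + (k + 1))) (c i (k + 1) - ix (k + 1) x - n') x else 0) ≤ ρ)
    (hH : ∀ k < N, ∀ x ∈ iv N S, ∀ n' ∈ iv (N - (k + 1)) T, ∑ i ∈ X,
      rt L (k + 1) (H i (L + (k + 1))) n' x ≤ ρ)
    (hG : ∑ x ∈ iv N S, ∑ k ∈ range N, 2 ^ (k + 1) * ∑ j ∈ iv (N - (k + 1)) T, vd U k x j ≤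
      4 ^ N * G) :
    ∑ i ∈ X, WF L N R S T U (c i) (F i) (H i) ≤ 2 * ρ * (4 ^ N * G) := by
  unfold WF
  rw [sum_comm]
  have key : ∀ k ∈ range N, ∑ i ∈ X, GW N R S T (k + 1) (c i (k + 1)) (fun n n' m =>
      ((2 : ℝ) ^ (k + 1))⁻¹ * ∑ x ∈ iv (k + 1) m,
        (rt L (k + 1) (F i (L + (k + 1))) n x + rt L (k + 1) (H i (L + (k + 1))) n' x) *
          vd U k x n') ≤
      2 * ρ * ∑ x ∈ iv N S, 2 ^ (k + 1) * ∑ j ∈ iv (N - (k + 1)) T, vd U k x j := by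
    intro k hk
    have hkN : k + 1 ≤ N := by have := mem_range.1 hk; omega
    simp only [GW_swap]
    rw [← mul_sum, sum_comm]
    have h1 : ∀ m ∈ iv (N - (k + 1)) S, ∑ i ∈ X, ∑ n' ∈ iv (N - (k + 1)) T,
        (if c i (k + 1) - m - n' ∈ iv (N - (k + 1)) R then
          ((2 : ℝ) ^ (k + 1))⁻¹ * ∑ x ∈ iv (k + 1) m,
            (rt L (k + 1) (F i (L + (k + 1))) (c i (k + 1) - m - n') x +
              rt L (k + 1) (H i (L + (k + 1))) n' x) * vd U k x n' else 0) ≤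
        ((2 : ℝ) ^ (k + 1))⁻¹ * (2 * ρ) * ∑ x ∈ iv (k + 1) m,
          ∑ j ∈ iv (N - (k + 1)) T, vd U k x j := by
      intro m hm
      rw [sum_comm]
      have h2 : ∀ n' ∈ iv (N - (k + 1)) T, ∑ i ∈ X,
          (if c i (k + 1) - m - n' ∈ iv (N - (k + 1)) R then
          ((2 : ℝ) ^ (k + 1))⁻¹ * ∑ x ∈ iv (k + 1) m,
            (rt L (k + 1) (F i (L + (k + 1))) (c i (k + 1) - m - n') x +
              rt L (k + 1) (H i (L + (k + 1))) n' x) * vd U k x n' else 0) ≤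
          ((2 : ℝ) ^ (k + 1))⁻¹ * (2 * ρ) * ∑ x ∈ iv (k + 1) m, vd U k x n' := by
        intro n' hn'
        have h3 : ∀ i ∈ X, (if c i (k + 1) - m - n' ∈ iv (N - (k + 1)) R then
          ((2 : ℝ) ^ (k + 1))⁻¹ * ∑ x ∈ iv (k + 1) m,
            (rt L (k + 1) (F i (L + (k + 1))) (c i (k + 1) - m - n') x +
              rt L (k + 1) (H i (L + (k + 1))) n' x) * vd U k x n' else 0) ≤
          ((2 : ℝ) ^ (k + 1))⁻¹ * ∑ x ∈ iv (k + 1) m,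
            ((if c i (k + 1) - ix (k + 1) x - n' ∈ iv (N - (k + 1)) R then
              rt L (k + 1) (F i (L + (k + 1))) (c i (k + 1) - ix (k + 1) x - n') x else 0) +
              rt L (k + 1) (H i (L + (k + 1))) n' x) * vd U k x n' := by
          intro i _
          have p2 : (0 : ℝ) ≤ ((2 : ℝ) ^ (k + 1))⁻¹ := by positivity
          split_ifs with hif
          · refine mul_le_mul_of_nonneg_left (sum_le_sum fun x hx => ?_) p2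
            rw [mem_iv.1 hx, if_pos hif]
          · refine mul_nonneg p2 (sum_nonneg fun x hx => ?_)
            rw [mem_iv.1 hx, if_neg hif, zero_add]
            exact mul_nonneg (rt_nonneg ..) (vd_nonneg ..)
        refine (sum_le_sum h3).trans ?_
        rw [← mul_sum, sum_comm, mul_assoc]
        refine mul_le_mul_of_nonneg_left ?_ (by positivity)
        rw [mul_sum]
        refine sum_le_sum fun x hx => ?_
        rw [← sum_mul, sum_add_distrib]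
        have hxN : x ∈ iv N S := by
          have h5 : x ∈ iv ((N - (k + 1)) + (k + 1)) S :=
            mem_iv_add.2 (by rw [mem_iv.1 hx]; exact hm)
          rwa [Nat.sub_add_cancel hkN] at h5
        refine mul_le_mul_of_nonneg_right ?_ (vd_nonneg ..)
        have a1 := hF k (by omega) x hxN n' hn'
        have a2 := hH k (by omega) x hxN n' hn'
        linarith
      refine (sum_le_sum h2).trans (le_of_eq ?_)
      rw [← mul_sum, sum_comm]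
    refine (mul_le_mul_of_nonneg_left (sum_le_sum h1) (by positivity)).trans (le_of_eq ?_)
    rw [← mul_sum, nest N (k + 1) hkN, ← mul_sum]
    have e4 : (4 : ℝ) ^ (k + 1) = 2 ^ (k + 1) * 2 ^ (k + 1) := by
      rw [← mul_pow]; norm_num
    rw [e4]
    have e2 : (2 : ℝ) ^ (k + 1) ≠ 0 := by positivity
    field_simp
  refine (sum_le_sum key).trans ?_
  rw [← mul_sum, sum_comm]
  exact mul_le_mul_of_nonneg_left hG (by positivity)

theorem sum_geom34 (n : ℕ) : ∑ r ∈ range n, (3 / 4 : ℝ) ^ r ≤ 4 := by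
  have h : ∑ r ∈ range n, (3 / 4 : ℝ) ^ r = 4 * (1 - (3 / 4 : ℝ) ^ n) := by
    induction n with
    | zero => simp
    | succ n ih => rw [sum_range_succ, ih, pow_succ]; ring
  rw [h]
  have : (0 : ℝ) ≤ (3 / 4 : ℝ) ^ n := by positivity
  linarith

/-- **The own number summed over `x₀`.** -/
theorem sum_WH (hρ : 0 ≤ ρ)
    (hH : ∀ k < N, ∀ x ∈ iv N S, ∀ n' ∈ iv (N - (k + 1)) T, ∑ i ∈ X,
      rt L (k + 1) (H i (L + (k + 1))) n' x ≤ ρ)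
    (hG : ∑ x ∈ iv N S, ∑ k ∈ range N, 2 ^ (k + 1) * ∑ j ∈ iv (N - (k + 1)) T, vd U k x j ≤
      4 ^ N * G) :
    ∑ i ∈ X, WH L N S T U (H i) ≤ 8 * ρ * (4 ^ N * G) := by
  unfold WH
  rw [sum_comm]
  have key : ∀ k ∈ range N, ∑ i ∈ X, ∑ r ∈ range (N - (k + 1) + 1), (3 / 4 : ℝ) ^ r *
      (2 ^ (k + 1) * ∑ x ∈ iv N S, ∑ j ∈ iv (N - (k + 1)) T,
        (rt L (k + 1) (H i (L + (k + 1))) j x + rt L (k + 1 + r) (H i (L + (k + 1))) (ix r j) x) *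
          vd U k x j) ≤
      8 * ρ * ∑ x ∈ iv N S, 2 ^ (k + 1) * ∑ j ∈ iv (N - (k + 1)) T, vd U k x j := by
    intro k hk
    have hkN : k + 1 ≤ N := by have := mem_range.1 hk; omega
    rw [sum_comm]
    have P0 : (0 : ℝ) ≤ ∑ x ∈ iv N S, 2 ^ (k + 1) * ∑ j ∈ iv (N - (k + 1)) T, vd U k x j :=
      sum_nonneg fun x _ => mul_nonneg (by positivity) (sum_nonneg fun j _ => vd_nonneg ..)
    have h1 : ∀ r ∈ range (N - (k + 1) + 1), ∑ i ∈ X, (3 / 4 : ℝ) ^ r *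
      (2 ^ (k + 1) * ∑ x ∈ iv N S, ∑ j ∈ iv (N - (k + 1)) T,
        (rt L (k + 1) (H i (L + (k + 1))) j x + rt L (k + 1 + r) (H i (L + (k + 1))) (ix r j) x) *
          vd U k x j) ≤
        (3 / 4 : ℝ) ^ r * (2 * ρ * ∑ x ∈ iv N S, 2 ^ (k + 1) *
          ∑ j ∈ iv (N - (k + 1)) T, vd U k x j) := by
      intro r hr
      have hrN : r ≤ N - (k + 1) := by have := mem_range.1 hr; omega
      rw [← mul_sum]
      refine mul_le_mul_of_nonneg_left ?_ (by positivity)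
      rw [← mul_sum, sum_comm, mul_sum, mul_sum]
      refine sum_le_sum fun x hx => ?_
      rw [sum_comm]
      have h2 : ∀ j ∈ iv (N - (k + 1)) T, ∑ i ∈ X, (rt L (k + 1) (H i (L + (k + 1))) j x +
          rt L (k + 1 + r) (H i (L + (k + 1))) (ix r j) x) * vd U k x j ≤ 2 * ρ * vd U k x j := by
        intro j hj
        rw [← sum_mul, sum_add_distrib]
        refine mul_le_mul_of_nonneg_right ?_ (vd_nonneg ..)
        have a1 := hH k (by omega) x hx j hj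
        have a2 : ∑ i ∈ X, rt L (k + 1 + r) (H i (L + (k + 1))) (ix r j) x ≤ ρ := by
          rw [sum_congr rfl fun i _ => rt_mean L (k + 1) r (H i (L + (k + 1))) (ix r j) x,
            ← mul_sum, sum_comm]
          have h2r : (0 : ℝ) < 2 ^ r := by positivity
          rw [inv_mul_le_iff₀ h2r]
          refine (sum_le_sum (g := fun _ => ρ) fun j' hj' => ?_).trans (le_of_eq ?_)
          · refine hH k (by omega) x hx j' ?_
            have h5 : j' ∈ iv ((N - (k + 1) - r) + r) T := by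
              refine mem_iv_add.2 ?_
              rw [mem_iv.1 hj']
              have h6 : j ∈ iv ((N - (k + 1) - r) + r) T := by rwa [Nat.sub_add_cancel hrN]
              exact mem_iv_add.1 h6
            rwa [Nat.sub_add_cancel hrN] at h5
          · exact sum_const_iv r _ ρ
        linarith
      refine (mul_le_mul_of_nonneg_left (sum_le_sum h2) (by positivity)).trans (le_of_eq ?_)
      rw [← mul_sum]
      ring
    refine (sum_le_sum h1).trans ?_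
    rw [← sum_mul]
    have h4 := sum_geom34 (N - (k + 1) + 1)
    have h5 := mul_le_mul_of_nonneg_right h4 (mul_nonneg (mul_nonneg zero_le_two hρ) P0)
    linarith
  refine (sum_le_sum key).trans ?_
  rw [← mul_sum, sum_comm]
  exact mul_le_mul_of_nonneg_left hG (by positivity)

end num

/-- **From one `x₀` to the family.** -/
theorem loFam_of (h : LoPW) : LoFam := by
  intro L N R S T X c U Q Q' F H D D' ρ G hρ hc hU eF eH hrF hrH hG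
  have h1 := sum_le_sum fun i (hi : i ∈ X) =>
    h L N R S T (c i) U (Q i) (Q' i) (F i) (H i) (D i) (D' i) (hc i hi) hU (eF i hi) (eH i hi)
  refine h1.trans ?_
  rw [← mul_sum, sum_add_distrib, sum_add_distrib, ← mul_sum]
  have a1 := sum_WF hρ hrF hrH hG
  have a2 := sum_WH hρ hrH hG
  refine mul_le_mul_of_nonneg_left ?_ (by norm_num)
  linarith

/-! ### The bound of `LP` -/

section lp

variable {L N : ℕ} {R : Pt} {X : Finset ℤ} {c : ℤ → ℕ → ℤ} {B C : ℤ → ℕ → ℤ → ℤ → ℝ} {cB cC : ℝ}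
  {s : ℤ → ℕ → Finset Pt} {S : ℤ → (k : ℕ) → Pt → Matrix (Ix k) (Ix k) ℝ}
  {U : ℕ → ℤ → ℤ → Matrix (Ix L) (Ix L) ℝ} {QB QC : ℤ → ℕ → ℤ → ℤ → Prop}

theorem rt_scl (L a : ℕ) (σ : ℝ) (F : ℤ → ℤ → ℝ) (n x : ℤ) :
    rt L a (scl σ F) n x = (σ ^ 2)⁻¹ * rt L a F n x := trace_scl ..

/-- **The crude lemma in the letters of `LP`, summed over `x₀`.** -/
theorem lo_LP_fam (HL : LoFam) (hc : ∀ i ∈ X, Pl (c i)) (hB : 0 < cB) (hC : 0 < cC)
    (hs0 : ∀ i ∈ X, ∀ k ≤ L, s i k = ∅)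
    (hs : ∀ i ∈ X, ∀ k ∈ Icc 1 (L + N), s i k ⊆ bx3 (L + N) R k (c i k))
    (capB : ∀ i ∈ X, ∀ k ∈ Icc 1 (L + N), ∀ m ∈ s i k, Cap k m.2.1 m.2.2 cB (B i k))
    (capC : ∀ i ∈ X, ∀ k ∈ Icc 1 (L + N), ∀ m ∈ s i k, Cap k m.1 m.2.2 cC (C i k))
    (hU : ∀ k x n, Ct (U k x n))
    (hSU : ∀ i ∈ X, ∀ k < N, ∀ m ∈ s i (L + (k + 1)),
      S i (L + (k + 1)) m = DU U (k + 1) (k + 1) m.2.1 m.2.2)
    {DB DC : ℤ → ℝ} (eB : ∀ i ∈ X, L2E (L + N) R.2.1 R.2.2 (QB i) (B i) (DB i))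
    (eC : ∀ i ∈ X, L2E (L + N) R.1 R.2.2 (QC i) (C i) (DC i)) {ρ G : ℝ} (hρ : 0 ≤ ρ)
    (rC : ∀ k < N, ∀ x ∈ iv N R.2.2, ∀ n' ∈ iv (N - (k + 1)) R.2.1, ∑ i ∈ X,
      (if c i (L + (k + 1)) - ix (k + 1) x - n' ∈ iv (N - (k + 1)) R.1 then
        rt L (k + 1) (C i (L + (k + 1))) (c i (L + (k + 1)) - ix (k + 1) x - n') x else 0) ≤ ρ)
    (rB : ∀ k < N, ∀ x ∈ iv N R.2.2, ∀ n' ∈ iv (N - (k + 1)) R.2.1, ∑ i ∈ X,
      rt L (k + 1) (B i (L + (k + 1))) n' x ≤ ρ)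
    (hG : ∑ x ∈ iv N R.2.2, ∑ k ∈ range N, 2 ^ (k + 1) * ∑ j ∈ iv (N - (k + 1)) R.2.1, vd U k x j
      ≤ 4 ^ N * G) (b e : ℕ) :
    ∑ i ∈ X, LP (L + N) (s i) cB cC (B i) (C i) (S i) b e ≤
      (16 * 10 ^ 4 * (∑ i ∈ X, (DB i + DC i) + 10 * ρ * (4 ^ (L + N) * G))) *
        max (cB / 2 ^ (b - 1)) (cC / 2 ^ (e - 1)) ^ 2 := by
  set σ := max (cB / 2 ^ (b - 1)) (cC / 2 ^ (e - 1)) with hσ
  have σ0 : 0 < σ := lt_of_lt_of_le (by positivity : 0 < cB / 2 ^ (b - 1)) (le_max_left _ _)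
  have h1 : ∀ i ∈ X, LP (L + N) (s i) cB cC (B i) (C i) (S i) b e ≤
      16 * (σ ^ 2 * σ ^ 2) * (4 ^ L *
      ∑ k ∈ range N, GW N R.1 R.2.2 R.2.1 (k + 1) (c i (L + (k + 1)))
        (H433.mt U (scl σ (C i (L + (k + 1)))) (scl σ (B i (L + (k + 1)))) k)) := fun i hi =>
    LP_le_GW (c := fun j => c i (L + j)) hB hC (hs0 i hi)
      (fun k hk => hs i hi (L + (k + 1)) (mem_Icc.2 ⟨by omega, by omega⟩)) (capB i hi)
      (capC i hi) (hSU i hi)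
      (le_max_left _ _ : cB / 2 ^ (b - 1) ≤ σ) (le_max_right _ _ : cC / 2 ^ (e - 1) ≤ σ)
  have wz : ∀ {F : ℕ → ℤ → ℤ → ℝ}, F 0 = 0 → wp (σ ^ 2)⁻¹ F 0 = 0 := fun h => wp_zero _ h
  have w0 : (0 : ℝ) ≤ (σ ^ 2)⁻¹ := by positivity
  have h2 := HL L N R.1 R.2.2 R.2.1 X (fun i j => c i (L + j)) U QC QB
    (fun i => wp (σ ^ 2)⁻¹ (C i)) (fun i => wp (σ ^ 2)⁻¹ (B i)) (fun i => (σ ^ 2)⁻¹ * DC i)
    (fun i => (σ ^ 2)⁻¹ * DB i) ((σ ^ 2)⁻¹ * ρ) G (mul_nonneg w0 hρ)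
    (fun i hi => Pl_shift (hc i hi) L) hU
    (fun i hi => ⟨path_wp (σ ^ 2)⁻¹ (eC i hi).path, wz (eC i hi).zero, by
      rw [pwr_wp w0]; exact mul_le_mul_of_nonneg_left (eC i hi).own w0⟩)
    (fun i hi => ⟨path_wp (σ ^ 2)⁻¹ (eB i hi).path, wz (eB i hi).zero, by
      rw [pwr_wp w0]; exact mul_le_mul_of_nonneg_left (eB i hi).own w0⟩)
    (fun k hk x hx n' hn' => by
      refine le_trans (le_of_eq ?_) (mul_le_mul_of_nonneg_left (rC k hk x hx n' hn') w0)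
      rw [mul_sum]
      refine sum_congr rfl fun i _ => ?_
      split_ifs with hif
      · exact rt_scl ..
      · rw [mul_zero])
    (fun k hk x hx n' hn' => by
      refine le_trans (le_of_eq ?_) (mul_le_mul_of_nonneg_left (rB k hk x hx n' hn') w0)
      rw [mul_sum]
      exact sum_congr rfl fun i _ => rt_scl ..) hG
  refine (sum_le_sum h1).trans ?_
  rw [← mul_sum, ← mul_sum]
  have h3 : ∑ i ∈ X, ∑ k ∈ range N, GW N R.1 R.2.2 R.2.1 (k + 1) (c i (L + (k + 1)))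
        (H433.mt U (scl σ (C i (L + (k + 1)))) (scl σ (B i (L + (k + 1)))) k) ≤
      10 ^ 4 * (((4 : ℝ) ^ L)⁻¹ * ∑ i ∈ X, ((σ ^ 2)⁻¹ * DC i + (σ ^ 2)⁻¹ * DB i) +
        10 * ((σ ^ 2)⁻¹ * ρ) * (4 ^ N * G)) := h2
  refine (mul_le_mul_of_nonneg_left (mul_le_mul_of_nonneg_left h3
    (by positivity : (0 : ℝ) ≤ 4 ^ L)) (by positivity)).trans (le_of_eq ?_)
  have e1 : ∑ i ∈ X, ((σ ^ 2)⁻¹ * DC i + (σ ^ 2)⁻¹ * DB i) =
      (σ ^ 2)⁻¹ * ∑ i ∈ X, (DB i + DC i) := by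
    rw [mul_sum]
    exact sum_congr rfl fun i _ => by ring
  rw [e1, pow_add]
  field_simp

end lp

section lab

variable {κ : Type*} [Fintype κ] [DecidableEq κ] {L N : ℕ} {R : Pt} {X : Finset ℤ}
  {c : ℤ → ℕ → ℤ} {B C : ℤ → ℕ → ℤ → ℤ → ℤ → ℝ} {cB cC : ℝ} {s : ℤ → ℕ → Finset Pt}
  {el : κ → ℤ} {V : ℕ → ℤ → ℤ → Matrix κ κ ℝ} {QB QC : ℤ → ℕ → ℤ → ℤ → Prop}

/-- **(LP2) in the letters of the labels, summed over `x₀`.** -/
theorem lo_LP_lab_fam (HL : LoFam) (he : Function.Injective el) (hm : ∀ i, el i ∈ lbs L)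
    (hc : ∀ i ∈ X, Pl (c i)) (hB : 0 < cB) (hC : 0 < cC)
    (hs : ∀ i ∈ X, ∀ k ∈ Icc 1 N, s i k ⊆ bx3 N R k (c i k))
    (capB : ∀ i ∈ X, ∀ k ∈ Icc 1 N, ∀ m ∈ s i k, CapR L k m.2.1 m.2.2 cB (B i k))
    (capC : ∀ i ∈ X, ∀ k ∈ Icc 1 N, ∀ m ∈ s i k, CapR L k m.1 m.2.2 cC (C i k))
    (hV : ∀ k x n, Ct (V k x n)) (B0 : ∀ i ∈ X, B i 0 = 0) (C0 : ∀ i ∈ X, C i 0 = 0)
    (pB : ∀ i ∈ X, ∀ l ∈ lbs L, H736.Path N R.2.1 R.2.2 (QB i) (fun k => B i k l))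
    (pC : ∀ i ∈ X, ∀ l ∈ lbs L, H736.Path N R.1 R.2.2 (QC i) (fun k => C i k l)) {DB DC : ℝ}
    (oB : ∑ i ∈ X, ∑ l ∈ lbs L, pwr N R.2.1 R.2.2 (QB i) (fun k => B i k l) ≤ DB)
    (oC : ∑ i ∈ X, ∑ l ∈ lbs L, pwr N R.1 R.2.2 (QC i) (fun k => C i k l) ≤ DC)
    {ρ G : ℝ} (hρ : 0 ≤ ρ)
    (rC : ∀ k < N, ∀ y ∈ iv N R.2.2, ∀ n' ∈ iv (N - (k + 1)) R.2.1, ∑ i ∈ X,
      (if c i (k + 1) - ix (k + 1) y - n' ∈ iv (N - (k + 1)) R.1 then
        ∑ x ∈ iv (k + 1) (c i (k + 1) - ix (k + 1) y - n'), ∑ l ∈ lbs L, C i (k + 1) l x y ^ 2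
        else 0) ≤ 2 ^ (k + 1) * ρ)
    (rB : ∀ k < N, ∀ y ∈ iv N R.2.2, ∀ n' ∈ iv (N - (k + 1)) R.2.1, ∑ i ∈ X,
      ∑ x ∈ iv (k + 1) n', ∑ l ∈ lbs L, B i (k + 1) l x y ^ 2 ≤ 2 ^ (k + 1) * ρ)
    (hG : ∑ x ∈ iv N R.2.2, ∑ k ∈ range N, 2 ^ (k + 1) * ∑ j ∈ iv (N - (k + 1)) R.2.1, vk V k x j
      ≤ 4 ^ N * G) (b e : ℕ) :
    ∑ i ∈ X, LP (N + L) (shs L (s i)) cB cC (shF L fun k => encR L (B i k))
        (shF L fun k => encR L (C i k)) (SV L el V) b e ≤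
      (16 * 10 ^ 4 * (4 ^ L * (DB + DC) + 10 * ρ * (4 ^ (N + L) * G))) *
        max (cB / 2 ^ (b - 1)) (cC / 2 ^ (e - 1)) ^ 2 := by
  have hrt : ∀ (A : ℕ → ℤ → ℤ → ℤ → ℝ) (k : ℕ) (n y : ℤ),
      rt L (k + 1) ((shF L fun k => encR L (A k)) (L + (k + 1))) n y =
        (2 ^ (k + 1) : ℝ)⁻¹ * ∑ x ∈ iv (k + 1) n, ∑ l ∈ lbs L, A (k + 1) l x y ^ 2 := by
    intro A k n y
    have e1 : (shF L fun k => encR L (A k)) (L + (k + 1)) = encR L (A (k + 1)) := by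
      rw [Nat.add_comm L (k + 1)]
      exact shF_add L (fun k => encR L (A k)) (k + 1)
    rw [e1]
    exact H822.trace_encR ..
  have hs' : ∀ i ∈ X, _ := fun i hi => shs_sub (L := L) (R := R) (hs i hi)
  have cB' : ∀ i ∈ X, _ := fun i hi => cap_shF (N := N) (L := L) (G := fun k => encR L (B i k))
    (x := cB) (s := s i) (p := fun m => m.2.1) (q := fun m => m.2.2)
    fun k hk m hm => cap_encR (capB i hi k hk m hm)
  have cC' : ∀ i ∈ X, _ := fun i hi => cap_shF (N := N) (L := L) (G := fun k => encR L (C i k))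
    (x := cC) (s := s i) (p := fun m => m.1) (q := fun m => m.2.2)
    fun k hk m hm => cap_encR (capC i hi k hk m hm)
  have lB : ∀ i ∈ X, _ := fun i hi => L2E_encR (L := L) (B0 i hi) (pB i hi) le_rfl
  have lC : ∀ i ∈ X, _ := fun i hi => L2E_encR (L := L) (C0 i hi) (pC i hi) le_rfl
  rw [Nat.add_comm N L] at hs' cB' cC' lB lC
  rw [Nat.add_comm N L]
  have hp : ∀ k : ℕ, (0 : ℝ) < 2 ^ (k + 1) := fun k => by positivity
  have h := lo_LP_fam HL (L := L) (N := N) (R := R) (X := X) (S := fun _ => SV L el V)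
    (c := fun i => shc L (c i))
    (U := fun k x n => emb L el (V k x n)) (ρ := ρ) (fun i hi => shc_pl (L := L) (hc i hi)) hB hC
    (fun i _ k hk => by
      unfold shs
      rw [if_neg (by omega)])
    hs' cB' cC' (fun k x n => emb_ct he hm (hV k x n))
    (fun i _ k _ m _ => SV_eq V (k + 1) m) lB lC hρ
    (fun k hk y hy n' hn' => by
      have e2 : ∀ i, shc L (c i) (L + (k + 1)) = c i (k + 1) := fun i => by
        unfold shc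
        rw [if_pos (by omega), Nat.add_sub_cancel_left]
      have h1 := rC k hk y hy n' hn'
      rw [← inv_mul_le_iff₀ (hp k)] at h1
      refine le_trans (le_of_eq ?_) h1
      rw [mul_sum]
      refine sum_congr rfl fun i _ => ?_
      rw [e2, hrt]
      split_ifs with hif
      · rfl
      · rw [mul_zero])
    (fun k hk y hy n' hn' => by
      have h1 := rB k hk y hy n' hn'
      rw [← inv_mul_le_iff₀ (hp k)] at h1
      refine le_trans (le_of_eq ?_) h1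
      rw [mul_sum]
      exact sum_congr rfl fun i _ => hrt ..)
    (by
      simp only [vd_emb he hm]
      exact hG) b e
  refine h.trans (mul_le_mul_of_nonneg_right (mul_le_mul_of_nonneg_left ?_ (by norm_num))
    (sq_nonneg _))
  refine add_le_add_left ?_ _
  rw [sum_add_distrib, ← mul_sum, ← mul_sum, ← mul_add]
  exact mul_le_mul_of_nonneg_left (add_le_add oB oC) (by positivity)

end lab

section light

variable {κ : Type*} [Fintype κ] [DecidableEq κ] {L N : ℕ} {R : Pt} {X : Finset ℤ}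
  {c : ℤ → ℕ → ℤ} {B C : ℤ → ℕ → ℤ → ℤ → ℤ → ℝ} {cB cC : ℝ} {s : ℤ → ℕ → Finset Pt}
  {el : κ → ℤ} {QB QC : ℤ → ℕ → ℤ → ℤ → Prop} {l : ℝ} {G K : ℤ → ℕ → ℤ → Matrix κ κ ℝ}

/-- **(LP2) for the light multiplier**, summed over `x₀`, with row sums. -/
theorem lo_LP_light_rows (HL : LoFam) (he : Function.Injective el) (hm : ∀ i, el i ∈ lbs L)
    (hc : ∀ i ∈ X, Pl (c i)) (hB : 0 < cB) (hC : 0 < cC)
    (hs : ∀ i ∈ X, ∀ k ∈ Icc 1 N, s i k ⊆ bx3 N R k (c i k))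
    (capB : ∀ i ∈ X, ∀ k ∈ Icc 1 N, ∀ m ∈ s i k, CapR L k m.2.1 m.2.2 cB (B i k))
    (capC : ∀ i ∈ X, ∀ k ∈ Icc 1 N, ∀ m ∈ s i k, CapR L k m.1 m.2.2 cC (C i k))
    (h : ∀ x, H420.Tr l N (G x) (K x)) (B0 : ∀ i ∈ X, B i 0 = 0) (C0 : ∀ i ∈ X, C i 0 = 0)
    (pB : ∀ i ∈ X, ∀ l ∈ lbs L, H736.Path N R.2.1 R.2.2 (QB i) (fun k => B i k l))
    (pC : ∀ i ∈ X, ∀ l ∈ lbs L, H736.Path N R.1 R.2.2 (QC i) (fun k => C i k l)) {DB DC : ℝ}
    (oB : ∑ i ∈ X, ∑ l ∈ lbs L, pwr N R.2.1 R.2.2 (QB i) (fun k => B i k l) ≤ DB)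
    (oC : ∑ i ∈ X, ∑ l ∈ lbs L, pwr N R.1 R.2.2 (QC i) (fun k => C i k l) ≤ DC)
    {ρ g₀ : ℝ} (hρ : 0 ≤ ρ)
    (rC : ∀ k < N, ∀ y ∈ iv N R.2.2, ∀ n' ∈ iv (N - (k + 1)) R.2.1, ∑ i ∈ X,
      (if c i (k + 1) - ix (k + 1) y - n' ∈ iv (N - (k + 1)) R.1 then
        ∑ x ∈ iv (k + 1) (c i (k + 1) - ix (k + 1) y - n'), ∑ l ∈ lbs L, C i (k + 1) l x y ^ 2
        else 0) ≤ 2 ^ (k + 1) * ρ)
    (rB : ∀ k < N, ∀ y ∈ iv N R.2.2, ∀ n' ∈ iv (N - (k + 1)) R.2.1, ∑ i ∈ X,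
      ∑ x ∈ iv (k + 1) n', ∑ l ∈ lbs L, B i (k + 1) l x y ^ 2 ≤ 2 ^ (k + 1) * ρ)
    (hg : ∑ x ∈ iv N R.2.2, (G x N R.2.1).trace ≤ 2 ^ N * g₀) (b e : ℕ) :
    ∑ i ∈ X, LP (N + L) (shs L (s i)) cB cC (shF L fun k => encR L (B i k))
        (shF L fun k => encR L (C i k)) (SV L el (VL l K)) b e ≤
      (16 * 10 ^ 4 * (4 ^ L * (DB + DC) + 10 * ρ * (4 ^ (N + L) * (2 * l⁻¹ * g₀)))) *
        max (cB / 2 ^ (b - 1)) (cC / 2 ^ (e - 1)) ^ 2 :=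
  lo_LP_lab_fam HL he hm hc hB hC hs capB capC (VL_ct h) B0 C0 pB pC oB oC hρ rC rB
    (H676.VL_mass_h h R.2.2 R.2.1 hg) b e

end light

end

end Vale.Agent.P141.H511.LoW
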