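import Vale.Agent.P141.H609.HZL
import Vale.Agent.P141.H822.LPLight
import Vale.Agent.P141.H536.LightQ
import Vale.Agent.P141.H677.Fam
import Vale.Agent.P141.H633.TrS
import Vale.Agent.P141.H874.LightQ
import Vale.Agent.P141.H576.GlueW

/-!
# P141, line (A), the gap part: one node operator for all inputs

The gap part of a node in the letters of `H609.tzX_lab`: node operator `H822.SV` of the light
multiplier `√l K⁻¹`, flow matrix `YW`.

* `SE_DB` : `H536.SE` of the block diagonal matrix is `H822.SV`;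
* `seam` : `(hd S Bᵀ hd + YW) Aᵀ = 4 ^ L • H576.WZ`;
* `seam_form` : the trace form of `tzX_lab` is `4 ^ L * ndZ`; `seam_tr` : its Hilbert-Schmidt norm.
-/

set_option linter.unusedSectionVars false

namespace Vale.Agent.P141.H511

open Finset Matrix Vale.Agent.P075 Vale.Agent.P141.PL
open Vale.Agent.P141.PL.H588 (hd sum_iv Pl)
open Vale.Agent.P141.PL.H804 Vale.Agent.P141.H958
open Vale.Agent.P141.H338 (cu lf sum_cu_mul sum_cu_cu cu_apply cu_add cu_sub cu_smul cu_sum sum_iv_ix)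
open Vale.Agent.P141.H609 Vale.Agent.P141.H576
open Vale.Agent.P141.H822 (SV kV VL)
open Vale.Agent.P141.H536 (TE SE SE_add)
open Vale.Agent.P141.H874 (DB)
open Vale.Agent.P141.H633 (Sf)
open Vale.Agent.P141.H103 (qK)
open Vale.Agent.P141.H677 (ndZ nf3)

noncomputable section

variable {κ : Type*} [Fintype κ] [DecidableEq κ] {L : ℕ} {e : κ → ℤ}

/-! ### the node operator -/

/-- **(S1)** the node operator of the light pair is the block matrix of the multiplier. -/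
theorem SE_DB (V : ℕ → ℤ → ℤ → Matrix κ κ ℝ) (k : ℕ) (m : Pt) :
    SE L e (fun k m => DB k m.2.2 fun x => V k x m.2.1) (k + L) m = SV L e V (k + L) m := by
  rw [SE_add]
  ext i j
  have hR : SV L e V (k + L) m i j =
      kV L e (fun x => V (k + L - L) x m.2.1) (2 ^ (k + L) * m.2.2 + (val (k + L) i : ℤ))
        (2 ^ (k + L) * m.2.2 + (val (k + L) j : ℤ)) := rfl
  rw [hR]
  unfold H822.kV
  rw [H536.ix_pos, H536.ix_pos, H536.lb_pos, H536.lb_pos, Nat.add_sub_cancel]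
  rw [H536.mul_TEt]
  have h1 : ∀ q : κ, (TE L e k * DB k m.2.2 fun x => V k x m.2.1) i (H536.dp k L j, q) =
      ∑ a, if e a = H536.dl k L i then
        (if H536.dp k L i = H536.dp k L j then
          V k (2 ^ k * m.2.2 + val k (H536.dp k L i)) m.2.1 a q else 0) else 0 := by
    intro q
    rw [Matrix.mul_apply, Fintype.sum_prod_type, Finset.sum_eq_single (H536.dp k L i)]
    · refine sum_congr rfl fun a _ => ?_
      rw [H536.TE_apply]
      by_cases h : e a = H536.dl k L i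
      · rw [if_pos ⟨rfl, h.symm⟩, if_pos h, one_mul]
        rfl
      · rw [if_neg fun h' => h h'.2.symm, if_neg h, zero_mul]
    · intro p _ hp
      refine sum_eq_zero fun a _ => ?_
      rw [H536.TE_apply, if_neg fun h' => hp h'.1.symm, zero_mul]
    · intro h
      exact absurd (mem_univ _) h
  simp only [h1]
  unfold H338.cu
  by_cases hd' : H536.dp k L i = H536.dp k L j
  · rw [if_pos (by rw [hd'])]
    rw [sum_comm]
    refine sum_congr rfl fun b _ => ?_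
    by_cases hb : e b = H536.dl k L j
    · rw [if_pos hb]
      refine sum_congr rfl fun a _ => ?_
      by_cases ha : e a = H536.dl k L i
      · rw [if_pos ha, if_pos hd', if_pos (show e a = H536.dl k L i ∧ e b = H536.dl k L j from ⟨ha, hb⟩)]
      · rw [if_neg ha, if_neg fun h => ha h.1]
    · rw [if_neg hb]
      symm
      refine sum_eq_zero fun a _ => ?_
      rw [if_neg fun h => hb h.2]
  · have hne : ¬ (2 ^ k * m.2.2 + (val k (H536.dp k L i) : ℤ) =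
        2 ^ k * m.2.2 + (val k (H536.dp k L j) : ℤ)) := by
      intro h
      apply hd'
      apply val_inj k
      have : (val k (H536.dp k L i) : ℤ) = (val k (H536.dp k L j) : ℤ) := by linarith
      exact_mod_cast this
    rw [if_neg hne]
    refine sum_eq_zero fun b _ => ?_
    simp only [if_neg hd', ite_self, sum_const_zero]

/-! ### the node matrix -/

/-- labelled function of the pair `b`, middle variable first -/
def BL (e : κ → ℤ) (b : ℤ → ℤ → κ → ℝ) : ℤ → ℤ → ℤ → ℝ := fun lab y x => cu e (b x y) lab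

/-- labelled function of the pair `C` -/
def CL (e : κ → ℤ) (C : ℤ → ℤ → κ → ℝ) : ℤ → ℤ → ℤ → ℝ := fun lab z x => cu e (C z x) lab

/-- labelled function of the flow -/
def FYB (l : ℝ) (e : κ → ℤ) (K : ℤ → ℕ → ℤ → Matrix κ κ ℝ) (b : ℤ → ℤ → κ → ℝ) (k : ℕ) (n : ℤ) :
    ℤ → ℤ → ℤ → ℝ := fun lab y x =>
  cu e (Sf l (K x k n) (K x (k - 1) (2 * n)) (K x (k - 1) (2 * n + 1)) *ᵥ b x y) lab

/-- the flow matrix of the node on the fine grid -/
def YW (L : ℕ) (l : ℝ) (e : κ → ℤ) (K : ℤ → ℕ → ℤ → Matrix κ κ ℝ) (b : ℕ → ℤ → ℤ → κ → ℝ)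
    (k' : ℕ) (m : Pt) : Matrix (Ix k') (Ix k') ℝ :=
  -(hd k' * (bl k' (encR L (FYB l e K (b (k' - L)) (k' - L) m.2.1)) m.2.1 m.2.2)ᵀ)

/-- the node matrix in the letters of `H609.tzX_lab` -/
def WY (L : ℕ) (l : ℝ) (e : κ → ℤ) (A : ℕ → ℤ → ℤ → ℝ) (b : ℕ → ℤ → ℤ → κ → ℝ)
    (K : ℤ → ℕ → ℤ → Matrix κ κ ℝ) (k : ℕ) (m : Pt) : Matrix (Ix (k + L)) (Ix (k + L)) ℝ :=
  (hd (k + L) * SV L e (VL l K) (k + L) m * (bl (k + L) (encR L (BL e (b k))) m.2.1 m.2.2)ᵀ *
    hd (k + L) + YW L l e K b (k + L) m) * (bl (k + L) (dup L (A k)) m.1 m.2.1)ᵀ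

/-- the block of the multiplier against a labelled function -/
theorem sum_kV (he : Function.Injective e) (hm : ∀ i, e i ∈ lbs L) (V : ℤ → Matrix κ κ ℝ)
    (f : ℤ → κ → ℝ) (k : ℕ) (m : ℤ) {X : ℤ} (hX : X ∈ iv (k + L) m) :
    ∑ p ∈ iv (k + L) m, kV L e V X p * (√(2 ^ L) * cu e (f (ix L p)) (lb L p)) =
      √(2 ^ L) * cu e (V (ix L X) *ᵥ f (ix L X)) (lb L X) := by
  have h1 : ∀ p, kV L e V X p * (√(2 ^ L) * cu e (f (ix L p)) (lb L p)) =
      (fun l x => (if ix L X = x then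
        ∑ a, ∑ b, if e a = lb L X ∧ e b = l then V (ix L X) a b else 0 else 0) *
        (√(2 ^ L) * cu e (f x) l)) (lb L p) (ix L p) := fun p => rfl
  rw [sum_congr rfl fun p _ => h1 p]
  refine (sum_iv_add L k m (fun l x => (if ix L X = x then
        ∑ a, ∑ b, if e a = lb L X ∧ e b = l then V (ix L X) a b else 0 else 0) *
        (√(2 ^ L) * cu e (f x) l))).trans ?_
  rw [sum_eq_single (ix L X)]
  · simp only [if_true]
    have h2 : ∀ l, (∑ a, ∑ b, if e a = lb L X ∧ e b = l then V (ix L X) a b else 0) *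
        (√(2 ^ L) * cu e (f (ix L X)) l) = ∑ b, cu e (f (ix L X)) l * (if e b = l then
          √(2 ^ L) * (∑ a, if e a = lb L X then V (ix L X) a b else 0) else 0) := by
      intro l
      rw [sum_comm, sum_mul]
      refine sum_congr rfl fun b _ => ?_
      by_cases hb : e b = l
      · rw [if_pos hb]
        simp only [hb, and_true]
        ring
      · rw [if_neg hb]
        simp only [hb, and_false, if_false, sum_const_zero, zero_mul, mul_zero]
    rw [sum_congr rfl fun l _ => h2 l, sum_comm]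
    have h3 : ∀ b : κ, ∑ l ∈ lbs L, cu e (f (ix L X)) l * (if e b = l then
          √(2 ^ L) * (∑ a, if e a = lb L X then V (ix L X) a b else 0) else 0) =
        f (ix L X) b * (√(2 ^ L) * (∑ a, if e a = lb L X then V (ix L X) a b else 0)) := by
      intro b
      simp only [mul_ite, mul_zero]
      rw [sum_ite_eq, if_pos (hm b), cu_apply he]
    simp only [h3]
    unfold H338.cu
    simp only [mulVec, dotProduct]
    rw [mul_sum]
    have h4 : ∀ a, √((2 : ℝ) ^ L) * (if e a = lb L X then ∑ b, V (ix L X) a b * f (ix L X) b else 0) =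
        ∑ b, f (ix L X) b * (√(2 ^ L) * (if e a = lb L X then V (ix L X) a b else 0)) := by
      intro a
      split_ifs with h
      · rw [mul_sum]
        exact sum_congr rfl fun b _ => by ring
      · simp
    rw [sum_congr rfl fun a _ => h4 a, sum_comm]
    exact sum_congr rfl fun b _ => by rw [mul_sum, mul_sum]
  · intro x _ hx
    refine sum_eq_zero fun l _ => ?_
    simp only [if_neg (Ne.symm hx), zero_mul]
  · intro h
    exact absurd (mem_iv_add.1 hX) h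

/-- the gap part as a sum over the middle variable -/
theorem sz_sum (l : ℝ) (K : ℕ → ℤ → Matrix κ κ ℝ) {k : ℕ} (hk : 1 ≤ k) (A : ℤ → ℤ → ℝ)
    (b : ℤ → ℤ → κ → ℝ) (z x n : ℤ) :
    ∑ y ∈ iv k n, ((hs k y * A z y) • ((√l • (K k n)⁻¹) *ᵥ b x y) -
        A z y • (Sf l (K k n) (K (k - 1) (2 * n)) (K (k - 1) (2 * n + 1)) *ᵥ b x y)) =
      (2 : ℝ) ^ k • sz l K (qK A b z x) k n := by
  have h2 : (2 : ℝ) ^ k ≠ 0 := by positivity
  rw [sum_sub_distrib]
  have e1 : ∑ y ∈ iv k n, (hs k y * A z y) • ((√l • (K k n)⁻¹) *ᵥ b x y) =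
      (√l • (K k n)⁻¹) *ᵥ ∑ y ∈ iv k n, hs k y • (A z y • b x y) := by
    rw [mulVec_sum]
    exact sum_congr rfl fun y _ => by rw [smul_smul, mulVec_smul]
  have e2 : ∑ y ∈ iv k n, A z y • (Sf l (K k n) (K (k - 1) (2 * n)) (K (k - 1) (2 * n + 1)) *ᵥ
      b x y) = Sf l (K k n) (K (k - 1) (2 * n)) (K (k - 1) (2 * n + 1)) *ᵥ
        ∑ y ∈ iv k n, A z y • b x y := by
    rw [mulVec_sum]
    exact sum_congr rfl fun y _ => by rw [mulVec_smul]
  have e3 : ∑ y ∈ iv k n, hs k y • (A z y • b x y) = (2 : ℝ) ^ k • H483.hd (qK A b z x) k n := by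
    rw [H677.hd_qK hk, smul_smul, mul_inv_cancel₀ h2, one_smul]
  have e4 : ∑ y ∈ iv k n, A z y • b x y = (2 : ℝ) ^ k • qK A b z x k n := by
    unfold H103.qK
    rw [smul_smul, mul_inv_cancel₀ h2, one_smul]
  rw [e1, e2, e3, e4, mulVec_smul, mulVec_smul, ← smul_sub]
  congr 1
  unfold H576.sz H483.ze H633.Sf
  rw [mulVec_sub, smul_sub, smul_mulVec, smul_mulVec]
  congr 2
  rw [← mulVec_mulVec, ← mulVec_mulVec]
  rfl

/-- **(S2)** the node matrix of `tzX_lab` is `4 ^ L` times the matrix `WZ` of the gap. -/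
theorem seam (he : Function.Injective e) (hm : ∀ i, e i ∈ lbs L) (l : ℝ) (A : ℕ → ℤ → ℤ → ℝ)
    (b : ℕ → ℤ → ℤ → κ → ℝ) (K : ℤ → ℕ → ℤ → Matrix κ κ ℝ) {k : ℕ} (hk : 1 ≤ k) (m : Pt) :
    WY L l e A b K k m = (4 : ℝ) ^ L • WZ L l e A b K (k + L) m := by
  have hkL : 1 ≤ k + L := by omega
  have h2 : (2 : ℝ) ^ L ≠ 0 := by positivity
  have h44 : (4 : ℝ) ^ L = 2 ^ L * 2 ^ L := by rw [← mul_pow]; norm_num
  ext i j
  set X : ℤ := 2 ^ (k + L) * m.2.2 + (val (k + L) i : ℤ) with hX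
  set Z : ℤ := 2 ^ (k + L) * m.1 + (val (k + L) j : ℤ) with hZ
  have hXm : X ∈ iv (k + L) m.2.2 := by
    have := val_lt (k + L) i
    unfold iv
    rw [mem_Ico]
    constructor
    · rw [hX]
      have h0 : (0 : ℤ) ≤ (val (k + L) i : ℤ) := Int.natCast_nonneg _
      linarith
    · rw [hX]
      have h0 : (val (k + L) i : ℤ) < 2 ^ (k + L) := by exact_mod_cast this
      linarith
  -- right side
  have hR : ((4 : ℝ) ^ L • WZ L l e A b K (k + L) m) i j =
      2 ^ L * (√(2 ^ L) * (hs k (ix L X) * 2 ^ k *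
        cu e (sz l (K (ix L X)) (qK (A k) (b k) (ix L Z) (ix L X)) k m.2.1) (lb L X))) := by
    have h0 : ((4 : ℝ) ^ L • WZ L l e A b K (k + L) m) i j =
        4 ^ L * ((2 ^ L)⁻¹ * (√(2 ^ L) * FZ l e A b K (k + L - L) m.2.1 (lb L X) (ix L Z)
          (ix L X))) := rfl
    rw [h0, Nat.add_sub_cancel]
    unfold H576.FZ
    rw [h44]
    field_simp
  rw [hR]
  -- left side
  have hL : WY L l e A b K k m i j = ∑ q : Ix (k + L),
      (hs (k + L) X * (∑ p, SV L e (VL l K) (k + L) m i p *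
          bl (k + L) (encR L (BL e (b k))) m.2.1 m.2.2 q p) *
          hs (k + L) (2 ^ (k + L) * m.2.1 + (val (k + L) q : ℤ)) -
        hs (k + L) X * bl (k + L) (encR L (FYB l e K (b (k + L - L)) (k + L - L) m.2.1))
          m.2.1 m.2.2 q i) * bl (k + L) (dup L (A k)) m.1 m.2.1 j q := by
    unfold WY YW
    rw [Matrix.mul_apply]
    refine sum_congr rfl fun q _ => ?_
    rw [Matrix.transpose_apply, Matrix.add_apply, Matrix.neg_apply, ← sub_eq_add_neg]
    congr 2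
    · rw [Matrix.mul_assoc (hd (k + L)), H576.hd_eq hkL m.2.1, Matrix.mul_diagonal,
        ← H576.hd_eq hkL m.2.1, H576.hd_eq hkL m.2.2, Matrix.diagonal_mul, Matrix.mul_apply]
      rfl
    · rw [H576.hd_eq hkL m.2.2, Matrix.diagonal_mul, Matrix.transpose_apply]
  rw [hL, Nat.add_sub_cancel]
  have hS : ∀ q : Ix (k + L), ∑ p, SV L e (VL l K) (k + L) m i p *
      bl (k + L) (encR L (BL e (b k))) m.2.1 m.2.2 q p = √(2 ^ L) *
        cu e ((√l • (K (ix L X) k m.2.1)⁻¹) *ᵥ b k (ix L X)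
          (ix L (2 ^ (k + L) * m.2.1 + (val (k + L) q : ℤ)))) (lb L X) := by
    intro q
    have h3 := sum_kV he hm (fun x => VL l K k x m.2.1)
      (fun x => b k x (ix L (2 ^ (k + L) * m.2.1 + (val (k + L) q : ℤ)))) k m.2.2 hXm
    rw [sum_iv] at h3
    have h4 : ∀ p, SV L e (VL l K) (k + L) m i p =
        kV L e (fun x => VL l K k x m.2.1) X (2 ^ (k + L) * m.2.2 + (val (k + L) p : ℤ)) := by
      intro p
      unfold H822.SV
      rw [Nat.add_sub_cancel]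
      rfl
    rw [sum_congr rfl fun p _ => by rw [h4 p]]
    exact h3
  simp only [hS]
  obtain ⟨g, hg⟩ : ∃ g : ℤ → ℝ, g = fun y : ℤ => √(2 ^ L) * (hs k (ix L X) * cu e (fun a =>
        ((hs k y * A k (ix L Z) y) • ((√l • (K (ix L X) k m.2.1)⁻¹) *ᵥ b k (ix L X) y) -
        A k (ix L Z) y • (Sf l (K (ix L X) k m.2.1) (K (ix L X) (k - 1) (2 * m.2.1))
          (K (ix L X) (k - 1) (2 * m.2.1 + 1)) *ᵥ b k (ix L X) y)) a) (lb L X)) := ⟨_, rfl⟩
  have hq : ∀ q : Ix (k + L),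
      (hs (k + L) X * (√(2 ^ L) * cu e ((√l • (K (ix L X) k m.2.1)⁻¹) *ᵥ b k (ix L X)
          (ix L (2 ^ (k + L) * m.2.1 + (val (k + L) q : ℤ)))) (lb L X)) *
          hs (k + L) (2 ^ (k + L) * m.2.1 + (val (k + L) q : ℤ)) -
        hs (k + L) X * bl (k + L) (encR L (FYB l e K (b k) k m.2.1)) m.2.1 m.2.2 q i) *
        bl (k + L) (dup L (A k)) m.1 m.2.1 j q =
      g (ix L (2 ^ (k + L) * m.2.1 + (val (k + L) q : ℤ))) := by
    intro q
    have h5 : bl (k + L) (encR L (FYB l e K (b k) k m.2.1)) m.2.1 m.2.2 q i = √(2 ^ L) *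
        cu e (Sf l (K (ix L X) k m.2.1) (K (ix L X) (k - 1) (2 * m.2.1))
          (K (ix L X) (k - 1) (2 * m.2.1 + 1)) *ᵥ b k (ix L X)
            (ix L (2 ^ (k + L) * m.2.1 + (val (k + L) q : ℤ)))) (lb L X) := rfl
    have h6 : bl (k + L) (dup L (A k)) m.1 m.2.1 j q =
        A k (ix L Z) (ix L (2 ^ (k + L) * m.2.1 + (val (k + L) q : ℤ))) := rfl
    rw [h5, h6, hs_add hk, hs_add hk, hg]
    simp only [Pi.sub_apply, Pi.smul_apply, smul_eq_mul]
    rw [cu_sub, cu_smul, cu_smul]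
    ring
  rw [sum_congr rfl fun q _ => hq q]
  have h9 := sum_iv (k + L) m.2.1 fun Y : ℤ => g (ix L Y)
  rw [← h9, sum_iv_ix, hg, ← mul_sum, ← mul_sum, ← cu_sum]
  have h7 : (fun i => ∑ y ∈ iv k m.2.1, (fun a =>
        ((hs k y * A k (ix L Z) y) • ((√l • (K (ix L X) k m.2.1)⁻¹) *ᵥ b k (ix L X) y) -
        A k (ix L Z) y • (Sf l (K (ix L X) k m.2.1) (K (ix L X) (k - 1) (2 * m.2.1))
          (K (ix L X) (k - 1) (2 * m.2.1 + 1)) *ᵥ b k (ix L X) y)) a) i) =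
      fun i => 2 ^ k * sz l (K (ix L X)) (qK (A k) (b k) (ix L Z) (ix L X)) k m.2.1 i := by
    funext a
    have h8 := congrFun (sz_sum l (K (ix L X)) hk (A k) (b k) (ix L Z) (ix L X) m.2.1) a
    rw [Finset.sum_apply] at h8
    exact h8
  rw [h7, cu_smul]
  ring

/-- **(S3)** the trace form of the node is `4 ^ L` times the gap part of the node. -/
theorem seam_form (he : Function.Injective e) (hm : ∀ i, e i ∈ lbs L) (l : ℝ)
    (A : ℕ → ℤ → ℤ → ℝ) (b : ℕ → ℤ → ℤ → κ → ℝ) (C : ℤ → ℤ → κ → ℝ)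
    (K : ℤ → ℕ → ℤ → Matrix κ κ ℝ) {k : ℕ} (hk : 1 ≤ k) (m : Pt) :
    (2 ^ (k + L) : ℝ)⁻¹ * (WY L l e A b K k m * hd (k + L) *
        bl (k + L) (encR L (CL e C)) m.1 m.2.2).trace =
      4 ^ L * ndZ l K (A k) (b k) C k m := by
  rw [seam he hm l A b K hk m, Matrix.smul_mul, Matrix.smul_mul, trace_smul, smul_eq_mul,
    mul_left_comm]
  congr 1
  exact WZ_form he hm hk C m

/-- Hilbert-Schmidt norm of the node matrix. -/
theorem seam_tr (he : Function.Injective e) (hm : ∀ i, e i ∈ lbs L) (l : ℝ)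
    (A : ℕ → ℤ → ℤ → ℝ) (b : ℕ → ℤ → ℤ → κ → ℝ) (K : ℤ → ℕ → ℤ → Matrix κ κ ℝ) {k : ℕ}
    (hk : 1 ≤ k) (m : Pt) :
    (4 ^ (k + L) : ℝ)⁻¹ * (WY L l e A b K k m * (WY L l e A b K k m)ᵀ).trace =
      16 ^ L * ((4 ^ (k + L) : ℝ)⁻¹ *
        (WZ L l e A b K (k + L) m * (WZ L l e A b K (k + L) m)ᵀ).trace) := by
  rw [seam he hm l A b K hk m, transpose_smul, Matrix.smul_mul, Matrix.mul_smul, smul_smul,
    trace_smul, smul_eq_mul, show (16 : ℝ) ^ L = 4 ^ L * 4 ^ L by rw [← mul_pow]; norm_num]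
  ring

/-- The pair sums do not see the sign of the flow matrix nor the sign matrix on the left. -/
theorem YW_sq (l : ℝ) (K : ℤ → ℕ → ℤ → Matrix κ κ ℝ) (b : ℕ → ℤ → ℤ → κ → ℝ) (k : ℕ) (m : Pt) :
    YW L l e K b (k + L) m * (YW L l e K b (k + L) m)ᵀ =
      (hd (k + L) * (bl (k + L) (encR L (FYB l e K (b k) k m.2.1)) m.2.1 m.2.2)ᵀ) *
        (hd (k + L) * (bl (k + L) (encR L (FYB l e K (b k) k m.2.1)) m.2.1 m.2.2)ᵀ)ᵀ := by
  unfold YW
  rw [Nat.add_sub_cancel, transpose_neg, Matrix.neg_mul, Matrix.mul_neg, neg_neg]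

/-! ### sums over the nodes -/

/-- the node operator is a contraction -/
theorem SV_ct {N : ℕ} {l : ℝ} {G K : ℤ → ℕ → ℤ → Matrix κ κ ℝ} (he : Function.Injective e)
    (hm : ∀ i, e i ∈ lbs L) (h : ∀ x, H420.Tr l N (G x) (K x)) (k : ℕ) (m : Pt) :
    (1 - (SV L e (VL l K) (k + L) m)ᵀ * SV L e (VL l K) (k + L) m).PosSemidef := by
  have key : ∀ k', k' = L + k → H433.Ct (SV L e (VL l K) k' m) := by
    rintro _ rfl
    rw [H822.SV_eq]
    exact H433.DU_ct (fun k x n => H822.emb_ct he hm (H822.VL_ct h k x n)) k k m.2.1 m.2.2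
  exact (key (k + L) (Nat.add_comm k L)).1

variable {N : ℕ} {X : Finset ℤ} {A : ℤ → ℕ → ℤ → ℤ → ℝ} {b C : ℤ → ℕ → ℤ → ℤ → κ → ℝ}
  {s : ℤ → ℕ → Finset Pt} {l : ℝ} {K : ℤ → ℕ → ℤ → Matrix κ κ ℝ}

/-- **The sum of the gap parts by the sum of the trace forms** of `H609.tzX_lab`. -/
theorem seam_sum (he : Function.Injective e) (hm : ∀ i, e i ∈ lbs L) :
    ∑ i ∈ X, ∑ k ∈ Icc 1 N, ∑ m ∈ s i k, |ndZ l K (A i k) (b i k) (C i k) k m| =
      (4 ^ L : ℝ)⁻¹ * ∑ i ∈ X, ∑ k ∈ Icc 1 N, ∑ m ∈ s i k, |(2 ^ (k + L) : ℝ)⁻¹ *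
        (((hd (k + L) * SV L e (VL l K) (k + L) m *
          (bl (k + L) (encR L (BL e (b i k))) m.2.1 m.2.2)ᵀ * hd (k + L) +
          YW L l e K (b i) (k + L) m) * (bl (k + L) (dup L (A i k)) m.1 m.2.1)ᵀ) * hd (k + L) *
          bl (k + L) (encR L (CL e (C i k))) m.1 m.2.2).trace| := by
  simp only [mul_sum]
  refine sum_congr rfl fun i _ => sum_congr rfl fun k hk => sum_congr rfl fun m _ => ?_
  have h := seam_form he hm l (A i) (b i) (C i k) K (mem_Icc.1 hk).1 m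
  unfold WY at h
  rw [h, abs_mul, abs_of_nonneg (show (0 : ℝ) ≤ 4 ^ L by positivity), ← mul_assoc,
    inv_mul_cancel₀ (show (4 : ℝ) ^ L ≠ 0 by positivity), one_mul]

/-- **The hypothesis `hv`** of `H609.tzX_lab` from the sum of `WZ` (`H576.GapFam.w`). -/
theorem seam_v (he : Function.Injective e) (hm : ∀ i, e i ∈ lbs L) {v : ℝ}
    (hv : ∑ i ∈ X, ∑ k ∈ Icc 1 N, ∑ m ∈ s i k, (4 ^ (k + L) : ℝ)⁻¹ *
      (WZ L l e (A i) (b i) K (k + L) m * (WZ L l e (A i) (b i) K (k + L) m)ᵀ).trace ≤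
        (4 ^ L : ℝ)⁻¹ * v) :
    ∑ i ∈ X, ∑ k ∈ Icc 1 N, ∑ m ∈ s i k, (4 ^ (k + L) : ℝ)⁻¹ *
      (((hd (k + L) * SV L e (VL l K) (k + L) m *
          (bl (k + L) (encR L (BL e (b i k))) m.2.1 m.2.2)ᵀ * hd (k + L) +
          YW L l e K (b i) (k + L) m) * (bl (k + L) (dup L (A i k)) m.1 m.2.1)ᵀ) *
        ((hd (k + L) * SV L e (VL l K) (k + L) m *
          (bl (k + L) (encR L (BL e (b i k))) m.2.1 m.2.2)ᵀ * hd (k + L) +
          YW L l e K (b i) (k + L) m) * (bl (k + L) (dup L (A i k)) m.1 m.2.1)ᵀ)ᵀ).trace ≤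
      4 ^ L * v := by
  have h4 : (4 : ℝ) ^ L ≠ 0 := by positivity
  have e1 : ∑ i ∈ X, ∑ k ∈ Icc 1 N, ∑ m ∈ s i k, (4 ^ (k + L) : ℝ)⁻¹ *
      (((hd (k + L) * SV L e (VL l K) (k + L) m *
          (bl (k + L) (encR L (BL e (b i k))) m.2.1 m.2.2)ᵀ * hd (k + L) +
          YW L l e K (b i) (k + L) m) * (bl (k + L) (dup L (A i k)) m.1 m.2.1)ᵀ) *
        ((hd (k + L) * SV L e (VL l K) (k + L) m *
          (bl (k + L) (encR L (BL e (b i k))) m.2.1 m.2.2)ᵀ * hd (k + L) +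
          YW L l e K (b i) (k + L) m) * (bl (k + L) (dup L (A i k)) m.1 m.2.1)ᵀ)ᵀ).trace =
      16 ^ L * ∑ i ∈ X, ∑ k ∈ Icc 1 N, ∑ m ∈ s i k, (4 ^ (k + L) : ℝ)⁻¹ *
        (WZ L l e (A i) (b i) K (k + L) m * (WZ L l e (A i) (b i) K (k + L) m)ᵀ).trace := by
    simp only [mul_sum (a := (16 : ℝ) ^ L)]
    refine sum_congr rfl fun i _ => sum_congr rfl fun k hk => sum_congr rfl fun m _ => ?_
    exact seam_tr he hm l (A i) (b i) K (mem_Icc.1 hk).1 m
  rw [e1]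
  refine (mul_le_mul_of_nonneg_left hv (by positivity)).trans (le_of_eq ?_)
  rw [show (16 : ℝ) ^ L = 4 ^ L * 4 ^ L by rw [← mul_pow]; norm_num]
  field_simp

end

end Vale.Agent.P141.H511
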