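import Vale.Agent.P141.H511.SeamZ
import Vale.Agent.P141.H555.TzQ
import Vale.Agent.P141.H924.FlowD
import Vale.Agent.P141.H205.HPart
import Vale.Agent.P141.H401.PartF

/-!
# P141, line (A), the gap part of cut families: tiles, points and alive nodes

`NZ_lab` : `H401.NZ` (sum over tiles, points and alive nodes of `|ndZ|`) by the right side of
`H555.tzX_lab'`, for arbitrary families in the label letters `κ`.

* `capR_of_S` : `H958.CapR` from the cap `H205.CapS`;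
* `YW_YF` : the pair sums of `YW` are those of `H633.YF`.
-/

set_option linter.unusedSectionVars false

namespace Vale.Agent.P141.H511

open Finset Matrix Vale.Agent.P075 Vale.Agent.P141.PL
open Vale.Agent.P141.PL.H588 (hd sum_iv Pl)
open Vale.Agent.P141.PL.H804 Vale.Agent.P141.H958
open Vale.Agent.P141.H338 (cu sum_cu_cu cu_smul cu_sum)
open Vale.Agent.P141.H609 Vale.Agent.P141.H576
open Vale.Agent.P141.H736 (Path)
open Vale.Agent.P141.H971 (Fam0 FamR)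
open Vale.Agent.P141.H822 (SV VL)
open Vale.Agent.P141.H205 (CapS pwrK ef)
open Vale.Agent.P141.H633 (YF)
open Vale.Agent.P141.H677
open Vale.Agent.P141.H401 (NS)

noncomputable section

open scoped Classical

variable {κ : Type*} [Fintype κ] [DecidableEq κ] {L : ℕ} {e : κ → ℤ}

/-- the cap of a labelled family from the cap in the label letters (`x` outer, `y` middle) -/
theorem capR_of_S (he : Function.Injective e) (hm : ∀ i, e i ∈ lbs L) {c : ℝ} {k : ℕ}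
    {F : ℤ → ℤ → κ → ℝ} {n m : ℤ} (h : CapS (c ^ 2) k k F n m) :
    CapR L k m n c (fun lab y x => cu e (F x y) lab) := by
  intro u v
  have h1 : ∑ x ∈ iv k n, ∑ l ∈ lbs L, ∑ y ∈ iv k m, u l x * v y * cu e (F x y) l =
      ∑ p ∈ iv k n ×ˢ lbs L, u p.2 p.1 * cu e (fun a => ∑ y ∈ iv k m, v y * F p.1 y a) p.2 := by
    rw [sum_product]
    refine sum_congr rfl fun x _ => sum_congr rfl fun l _ => ?_
    rw [cu_sum, mul_sum]
    refine sum_congr rfl fun y _ => ?_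
    rw [cu_smul]
    ring
  have h2 : ∑ x ∈ iv k n, ∑ l ∈ lbs L, u l x ^ 2 = ∑ p ∈ iv k n ×ˢ lbs L, u p.2 p.1 ^ 2 := by
    rw [sum_product]
  have h3 : ∑ p ∈ iv k n ×ˢ lbs L,
      cu e (fun a => ∑ y ∈ iv k m, v y * F p.1 y a) p.2 ^ 2 ≤
        (c * 2 ^ k) ^ 2 * ∑ y ∈ iv k m, v y ^ 2 := by
    rw [sum_product]
    have h4 : ∀ x, ∑ l ∈ lbs L, cu e (fun a => ∑ y ∈ iv k m, v y * F x y a) l ^ 2 =
        ∑ a, (∑ y ∈ iv k m, v y * F x y a) ^ 2 := by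
      intro x
      simp only [sq]
      exact sum_cu_cu he hm _ _
    simp only [h4]
    refine (h v).trans (le_of_eq ?_)
    ring
  show (∑ x ∈ iv k n, ∑ l ∈ lbs L, ∑ y ∈ iv k m, u l x * v y * cu e (F x y) l) ^ 2 ≤ _
  rw [h1, h2]
  refine (sum_mul_sq_le_sq_mul_sq _ _ _).trans ?_
  refine (mul_le_mul_of_nonneg_left h3 (sum_nonneg fun _ _ => sq_nonneg _)).trans (le_of_eq ?_)
  ring

/-- **The pair sums of `YW` are those of `H633.YF`.** -/
theorem YW_YF (l : ℝ) (K : ℤ → ℕ → ℤ → Matrix κ κ ℝ) (b : ℕ → ℤ → ℤ → κ → ℝ) (k : ℕ) (m : Pt) :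
    YW L l e K b (k + L) m * (YW L l e K b (k + L) m)ᵀ =
      YF L l e K (fun k y x => b k x y) (k + L) m *
        (YF L l e K (fun k y x => b k x y) (k + L) m)ᵀ := by
  rw [YW_sq]
  unfold H633.YF
  rw [Nat.add_sub_cancel]
  rfl

/-- the fields of a family, label letters -/
theorem pwr_of_K (he : Function.Injective e) (hm : ∀ i, e i ∈ lbs L) (N : ℕ) (R S : ℤ)
    (Q : ℕ → ℤ → ℤ → Prop) (F : ℕ → ℤ → ℤ → κ → ℝ) :
    ∑ l ∈ lbs L, pwr N S R (fl Q) (fun k y x => cu e (F k x y) l) = pwrK N R S Q F :=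
  H205.pwr_ef he hm N R S Q F

section main

variable {o : ℤ} {Al : ℕ → Pt → Prop} {K : ℕ} {x : Pt} {l : ℝ} {G Kf : ℤ → ℕ → ℤ → Matrix κ κ ℝ}
  {A : ℤ → ℕ → ℤ → ℤ → ℝ} {b C : ℤ → ℕ → ℤ → ℤ → κ → ℝ} {QA QB QC : ℤ → ℕ → ℤ → ℤ → Prop}
  {qA qB : ℕ → ℤ → ℤ → ℤ → Prop} {cA cB cC cP cP' GA DA DB DC gA gB : ℝ}

/-- **The gap part of arbitrary families.** -/
theorem NZ_lab (ho : o = 1 ∨ o = -1) (he : Function.Injective e) (hm : ∀ i, e i ∈ lbs L)
    (hA : 0 < cA) (hB : 0 < cB) (hC : 0 < cC) (hP : 1 ≤ cP)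
    (hT : ∀ x, H420.Tr l K (G x) (Kf x))
    (capA : ∀ t ∈ rt (cx K x), ∀ i ∈ iv K t, ∀ k ∈ Icc 1 K, ∀ m ∈ sN Al o K (cx K x) i k,
      Cap k m.1 m.2.1 cA (A i k))
    (capB : ∀ t ∈ rt (cx K x), ∀ i ∈ iv K t, ∀ k ∈ Icc 1 K, ∀ m ∈ sN Al o K (cx K x) i k,
      CapS (cB ^ 2) k k (b i k) m.2.2 m.2.1)
    (capC : ∀ t ∈ rt (cx K x), ∀ i ∈ iv K t, ∀ k ∈ Icc 1 K, ∀ m ∈ sN Al o K (cx K x) i k,
      CapS (cC ^ 2) k k (fun x z => C i k z x) m.2.2 m.1)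
    (fA : ∀ t ∈ rt (cx K x), Fam0 K (cx K x).2.2 (cx K x).2.1 (iv K t) QA A cP GA DA)
    (zB : ∀ t ∈ rt (cx K x), ∀ i ∈ iv K t, b i 0 = 0)
    (pB : ∀ t ∈ rt (cx K x), ∀ i ∈ iv K t, ∀ a,
      Path K (cx K x).1 (cx K x).2.1 (QB i) (fun k x y => b i k x y a))
    (oB : ∀ t ∈ rt (cx K x), ∑ i ∈ iv K t, pwrK K (cx K x).1 (cx K x).2.1 (QB i) (b i) ≤ DB)
    (zC : ∀ t ∈ rt (cx K x), ∀ i ∈ iv K t, C i 0 = 0)
    (pC : ∀ t ∈ rt (cx K x), ∀ i ∈ iv K t, ∀ a,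
      Path K (cx K x).1 (cx K x).2.2 (QC i) (fun k x z => C i k z x a))
    (oC : ∀ t ∈ rt (cx K x), ∑ i ∈ iv K t, pwrK K (cx K x).1 (cx K x).2.2 (QC i)
      (fun k x z => C i k z x) ≤ DC)
    (gap : ∀ t ∈ rt (cx K x), GapFam l K G Kf (cx K x).2.2 (cx K x).2.1 (cx K x).1 t A b qA qB
      gA gB cP')
    (hGA : 0 < GA) (hDC : 0 < DC) {D Q κ' σ ρ σ₀ w κC : ℝ} {qL qF : ℕ → ℝ}
    (hD : DA + DB ≤ D) (hD' : DA + DC ≤ D) (hσ : 0 < σ) (hρ : 0 < ρ) (hκC : 0 ≤ κC)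
    (hw : ∀ t ∈ rt (cx K x), ∑ i ∈ iv K t, ∑ k ∈ Icc 1 K, ∑ m ∈ sN Al o K (cx K x) i k,
      (YF L l e Kf (fun k y x => b i k x y) (k + L) m *
        (YF L l e Kf (fun k y x => b i k x y) (k + L) m)ᵀ).trace ≤ w)
    (hqL : ∀ t ∈ rt (cx K x), ∀ e', ∑ i ∈ iv K t, (cC / 2 ^ (e' - 1)) ^ 2 * ∑ k ∈ Icc 1 K,
      ∑ m ∈ sN Al o K (cx K x) i k,
      (phi (gramC (lv cC e' * (4 ^ (k + L))⁻¹) (bl (k + L) (encR L (CL e (C i k))) m.1 m.2.2)) *
        ((hd (k + L) * SV L e (VL l Kf) (k + L) m *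
            (bl (k + L) (encR L (BL e (b i k))) m.2.1 m.2.2)ᵀ * hd (k + L)) *
        (hd (k + L) * SV L e (VL l Kf) (k + L) m *
            (bl (k + L) (encR L (BL e (b i k))) m.2.1 m.2.2)ᵀ * hd (k + L))ᵀ)).trace ≤ qL e')
    (hqF : ∀ t ∈ rt (cx K x), ∀ e', ρ * σ < cC / 2 ^ (e' - 1) →
      ∑ i ∈ iv K t, (cC / 2 ^ (e' - 1)) ^ 2 * ∑ k ∈ Icc 1 K, ∑ m ∈ sN Al o K (cx K x) i k,
      (phi (gramC (lv cC e' * (4 ^ (k + L))⁻¹) (bl (k + L) (encR L (CL e (C i k))) m.1 m.2.2)) *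
        (YF L l e Kf (fun k y x => b i k x y) (k + L) m *
          (YF L l e Kf (fun k y x => b i k x y) (k + L) m)ᵀ)).trace ≤ qF e')
    (hκq : ∀ e', ρ * σ < cC / 2 ^ (e' - 1) → 6 * (√(qL e') + √(qF e')) *
      √(8800 * cP * (4 ^ L * max (min (DC / ρ ^ 2) ((cA / (cC / 2 ^ (e' - 1))) ^ 2 * DC))
        (√(GA * DC) / (cC / 2 ^ (e' - 1))))) ≤ κC)
    (hQ : ∀ e', cC / 2 ^ (e' - 1) ≤ ρ * σ → 4 * qL e' ≤ Q) (hκ0 : 0 ≤ κ') (hσ₀ : 0 ≤ σ₀)
    (hκ : ∀ t ∈ rt (cx K x), ∀ b' e', cB / 2 ^ (b' - 1) ≤ σ₀ → cC / 2 ^ (e' - 1) ≤ σ₀ →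
      ∑ i ∈ iv K t, LP (K + L) (shs L (sN Al o K (cx K x) i)) cB cC
        (shF L fun k => encR L (BL e (b i k))) (shF L fun k => encR L (CL e (C i k)))
        (SV L e (VL l Kf)) b' e' ≤
        κ' * max (cB / 2 ^ (b' - 1)) (cC / 2 ^ (e' - 1)) ^ 2)
    {LA LB LC LC' : ℕ} (lA : cA / 2 ^ (LA - 1) < σ) (lB : cB / 2 ^ (LB - 1) ≤ σ₀)
    (lC : cC / 2 ^ (LC - 1) ≤ σ₀) (lC' : cC / 2 ^ (LC' - 1) ≤ ρ * σ) :
    4 ^ L * NS o Al K x (fun x0 k m => |ndZ l Kf (A x0 k) (b x0 k) (C x0 k) k m|) ≤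
      3 * (6 * √(4 ^ L * (√l * (146 * √(gA * gB) * (cP' * 8 ^ K))) *
          (8800 * cP * (4 ^ L * max DC (ρ / σ * √(GA * DC))))) * LA + κC * LC' +
        (κC * LC' + 150 * √(w * (4 ^ L * ((ρ * σ) ^ 2 * DA + σ ^ 2 * DC))) +
          (9900 * (4 ^ L * D) * σ + 6 * √(550 * (4 ^ L * D) * Q) * (LB + LC) +
            36 * √(550 * (4 ^ L * D) * κ') * σ₀))) := by
  have h4 : (0 : ℝ) < 4 ^ L := by positivity
  have key : ∀ t ∈ rt (cx K x), 4 ^ L * ∑ i ∈ iv K t, ∑ k ∈ Icc 1 K,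
      ∑ m ∈ sN Al o K (cx K x) i k, |ndZ l Kf (A i k) (b i k) (C i k) k m| ≤
      6 * √(4 ^ L * (√l * (146 * √(gA * gB) * (cP' * 8 ^ K))) *
          (8800 * cP * (4 ^ L * max DC (ρ / σ * √(GA * DC))))) * LA + κC * LC' +
        (κC * LC' + 150 * √(w * (4 ^ L * ((ρ * σ) ^ 2 * DA + σ ^ 2 * DC))) +
          (9900 * (4 ^ L * D) * σ + 6 * √(550 * (4 ^ L * D) * Q) * (LB + LC) +
            36 * √(550 * (4 ^ L * D) * κ') * σ₀)) := by
    intro t ht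
    rw [seam_sum he hm, ← mul_assoc, mul_inv_cancel₀ h4.ne', one_mul]
    have hcl : ∀ k (x y : ℤ), ix k x = ix k y → H677.cP o x k = H677.cP o y k := by
      intro k x y hxy
      unfold H677.cP
      simp only [hxy]
    exact H555.tzX_lab' (N := K) (R := rv (cx K x)) (X := iv K t)
      (c := fun i => H677.cP o i) (s := fun i k => sN Al o K (cx K x) i k)
      (S := fun _ => SV L e (VL l Kf)) (YF := fun i => YW L l e Kf (b i))
      (B := fun i k => BL e (b i k)) (C := fun i k => CL e (C i k))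
      (QB := fun i => fl (QB i)) (QC := fun i => fl (QC i))
      (fun i _ => cP_pl ho i) (fun i _ k _ => sN_sub ..) hA hB hC (capA t ht)
      (fun i hi k hk m hmm => capR_of_S he hm (capB t ht i hi k hk m hmm))
      (fun i hi k hk m hmm => capR_of_S (F := fun x z => C i k z x) he hm
        (capC t ht i hi k hk m hmm)) hP
      (fun i _ k _ m _ => SV_ct he hm hT k m) (fA t ht)
      (fun i hi => by
        funext lab y x
        show cu e (b i 0 x y) lab = 0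
        rw [zB t ht i hi]
        unfold H338.cu
        simp)
      (fun i hi lab _ => H205.path_ef (pB t ht i hi) lab)
      (by
        refine le_trans (le_of_eq ?_) (oB t ht)
        exact sum_congr rfl fun i _ => pwr_of_K he hm K _ _ (QB i) (b i))
      (fun i hi => by
        funext lab z x
        show cu e (C i 0 z x) lab = 0
        rw [zC t ht i hi]
        unfold H338.cu
        simp)
      (fun i hi lab _ => H205.path_ef (pC t ht i hi) lab)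
      (by
        refine le_trans (le_of_eq ?_) (oC t ht)
        exact sum_congr rfl fun i _ => pwr_of_K he hm K _ _ (QC i) (fun k x z => C i k z x))
      hGA hDC hD hD' hσ hρ hκC
      (seam_v he hm ((gap t ht).w (s := fun i k => sN Al o K (cx K x) i k)
        (c := fun i => H677.cP o i) (R := rv (cx K x)) he hm (fun i => cP_pl ho i) hcl
        (fun i _ k _ => sN_sub ..)))
      (by
        refine le_trans (le_of_eq ?_) (hw t ht)
        exact sum_congr rfl fun i _ => sum_congr rfl fun k _ => sum_congr rfl fun m _ => by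
          rw [YW_YF])
      (hqL t ht)
      (fun e' he' => by
        refine le_trans (le_of_eq ?_) (hqF t ht e' he')
        refine sum_congr rfl fun i _ => ?_
        congr 1
        exact sum_congr rfl fun k _ => sum_congr rfl fun m _ => by rw [YW_YF])
      hκq hQ hκ0 hσ₀ (hκ t ht) lA lB lC lC'
  have h := sum_le_sum key
  rw [sum_const, H205.card_rt, nsmul_eq_mul, ← mul_sum] at h
  unfold H401.NS
  exact h.trans (le_of_eq (by norm_num))

end main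

end

end Vale.Agent.P141.H511
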